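import Vale.Agent.P176.Bdl.B1

set_option linter.all false

namespace Vale.Agent.P176.H807

open Vale.Agent.P176

universe u

/-- dimension count for `filP` -/
def dimStep (D : ℤ → ℕ) (i : ℤ) : ℕ := ∑ a ∈ Finset.range (i + 1).toNat, D (i - a)

/-- dimension count for `fil0` -/
def dim0 (i : ℤ) : ℕ := if 0 ≤ i then 1 else 0

section

variable {K W : Type*} [Field K] [AddCommGroup W] [Module K W]

theorem finrank_filP {F : ℤ → Submodule K W} (h0 : ∀ i < (0 : ℤ), F i = ⊥)
    (hf : ∀ i, Module.Finite K (F i)) {D : ℤ → ℕ} (hD : ∀ i, Module.finrank K (F i) = D i) (i : ℤ) :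
    Module.finrank K (filP F i) = dimStep D i := by
  classical
  let N : ℕ := (i + 1).toNat
  let T : filP F i →ₗ[K] (∀ a : Fin N, F (i - (a : ℕ))) :=
    { toFun := fun p a => ⟨p.1 a, p.2 a⟩
      map_add' := fun _ _ => rfl
      map_smul' := fun _ _ => rfl }
  have hinj : Function.Injective T := by
    intro p q hpq
    apply Subtype.ext
    ext a
    by_cases ha : a < N
    · exact congrArg Subtype.val (congrFun hpq ⟨a, ha⟩)
    · have hneg : i - (a : ℤ) < 0 := by
        have : (i + 1).toNat ≤ a := not_lt.1 ha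
        omega
      have h1 := p.2 a
      have h2 := q.2 a
      rw [h0 _ hneg] at h1 h2
      rw [(Submodule.mem_bot K).1 h1, (Submodule.mem_bot K).1 h2]
  have hsurj : Function.Surjective T := by
    intro w
    let p : ℕ →₀ W := ∑ a : Fin N, Finsupp.single (a : ℕ) (w a : W)
    have hp : ∀ a : Fin N, p a = w a := by
      intro a
      simp only [p, Finsupp.coe_finset_sum, Finset.sum_apply]
      rw [Finset.sum_eq_single a]
      · simp
      · intro b _ hb
        rw [Finsupp.single_apply, if_neg]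
        exact fun hh => hb (Fin.ext hh)
      · simp
    have hp' : p ∈ filP F i :=
      Submodule.sum_mem _ fun a _ => single_mem_filP (w a).2
    refine ⟨⟨p, hp'⟩, ?_⟩
    funext a
    exact Subtype.ext (hp a)
  have e := LinearEquiv.ofBijective T ⟨hinj, hsurj⟩
  rw [e.finrank_eq, Module.finrank_pi_fintype]
  simp only [hD]
  unfold dimStep
  rw [Finset.sum_range]

theorem finrank_fil0 (i : ℤ) : Module.finrank K (fil0 K K i) = dim0 i := by
  unfold dim0
  split_ifs with h
  · rw [fil0_of_nonneg h, finrank_top, Module.finrank_self]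
  · rw [fil0_of_neg (by omega), finrank_bot]

theorem finrank_C0 (i : ℤ) :
    Module.finrank K (C0.fil K K i) = dimStep (dimStep (dimStep dim0)) i := by
  have h0 : ∀ i < (0 : ℤ), fil0 K K i = ⊥ := fun i hi => fil0_of_neg hi
  have hf : ∀ i, Module.Finite K (fil0 K K i) := fun i => by
    by_cases hi : 0 ≤ i
    · rw [fil0_of_nonneg hi]; infer_instance
    · rw [fil0_of_neg (by omega)]; infer_instance
  exact finrank_filP (filP_eq_bot (filP_eq_bot h0)) (filP_finite (filP_eq_bot h0)
    (filP_finite h0 hf)) (finrank_filP (filP_eq_bot h0) (filP_finite h0 hf)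
      (finrank_filP h0 hf finrank_fil0)) i

theorem finrank_prod' {W' : Type*} [AddCommGroup W'] [Module K W'] (A : Submodule K W)
    (B : Submodule K W') [Module.Finite K A] [Module.Finite K B] :
    Module.finrank K (A.prod B) = Module.finrank K A + Module.finrank K B := by
  let g : A.prod B ≃ₗ[K] A × B :=
    { toFun := fun p => (⟨p.1.1, p.2.1⟩, ⟨p.1.2, p.2.2⟩)
      invFun := fun q => ⟨(q.1, q.2), q.1.2, q.2.2⟩
      left_inv := fun _ => rfl
      right_inv := fun _ => rfl
      map_add' := fun p q => rfl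
      map_smul' := fun r p => rfl }
  rw [g.finrank_eq, Module.finrank_prod]

end

/-- dimension count for the universal object -/
def dimU (i : ℤ) : ℕ :=
  dimStep (dimStep (dimStep (dimStep dim0))) i +
    (dimStep (dimStep (dimStep dim0)) (i + 1) + dimStep (dimStep (dimStep dim0)) (i + 1))

theorem finrank_x3Fil {K W : Type*} [Field K] [AddCommGroup W] [Module K W]
    {F : ℤ → Submodule K W} (h0 : ∀ i < (0 : ℤ), F i = ⊥)
    (hf : ∀ i, Module.Finite K (F i)) {D : ℤ → ℕ} (hD : ∀ i, Module.finrank K (F i) = D i) (i : ℤ) :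
    Module.finrank K (x3Fil F i) = dimStep D i + (D (i + 1) + D (i + 1)) := by
  have h2 : Module.Finite K (polyFil F i) := filP_finite h0 hf i
  have h3 : Module.finrank K (polyFil F i) = dimStep D i := finrank_filP h0 hf hD i
  have h5 : Module.Finite K ((F (i + 1)).prod (F (i + 1))) := UnivS.prod_finite (hf _) (hf _)
  have h4 : Module.finrank K ((polyFil F i).prod ((F (i + 1)).prod (F (i + 1)))) =
      dimStep D i + (D (i + 1) + D (i + 1)) := by
    rw [finrank_prod', finrank_prod', h3, hD]
  exact h4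

section

attribute [local instance] UnivS.instC0 UnivS.instC0Mod

theorem finrank_U (K : Type u) [Field K] (i : ℤ) :
    Module.finrank K ((UnivS.obj K K).Fil i) = dimU i := by
  have h1 : Module.finrank K (x3Fil (W := C0 K) (C0.fil K K) i) =
      dimStep (dimStep (dimStep (dimStep dim0))) i +
        (dimStep (dimStep (dimStep dim0)) (i + 1) + dimStep (dimStep (dimStep dim0)) (i + 1)) :=
    finrank_x3Fil (W := C0 K) (fun _ hi => C0.fil_eq_bot hi) C0.fil_finite finrank_C0 i
  exact h1

end

section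

variable {K : Type u} [Field K]

/-- evaluation on the generators -/
def evG {U : FMod K (Fin 6)} {inU : K →ₗ[K] U.X} (hU : IsFree U inU) (X : FMod K (Fin 6)) :
    Win (PU U) X →ₗ[K] (∀ j : Fin 5, X.Fil (j : ℤ)) where
  toFun φ j := ⟨φ.toLin (gen U (inU 1) j), FHom.fil φ.toLin_mem (gen_mem (hU.mem 1) j)⟩
  map_add' φ ψ := rfl
  map_smul' c φ := rfl

theorem evG_bijective {U : FMod K (Fin 6)} {inU : K →ₗ[K] U.X} (hU : IsFree U inU)
    {X : FMod K (Fin 6)} (hX : IsSObj X) : Function.Bijective (evG hU X) := by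
  constructor
  · intro φ ψ h
    apply Win.ext'
    refine hom_ext hU.isGen φ.toLin_mem ψ.toLin_mem fun j => ?_
    exact congrArg Subtype.val (congrFun h j)
  · intro x
    obtain ⟨φ, hφ, h1⟩ := exists_hom X (hU.isUniv hX) (fun j => (x j : X.X)) fun j => (x j).2
    exact ⟨Win.mk φ hφ, funext fun j => Subtype.ext (h1 j)⟩

theorem finrank_win {U : FMod K (Fin 6)} {inU : K →ₗ[K] U.X} (hU : IsFree U inU)
    {X : FMod K (Fin 6)} (hX : IsSObj X) (hfin : ∀ j, Module.Finite K (X.Fil j)) :
    Module.finrank K (Win (PU U) X) = ∑ j : Fin 5, Module.finrank K (X.Fil (j : ℤ)) := by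
  have e := LinearEquiv.ofBijective _ (evG_bijective hU hX)
  rw [e.finrank_eq, Module.finrank_pi_fintype]

/-- windows of the sum -/
def winPi (U : FMod K (Fin 6)) :
    Win (PU U) (PU U) ≃ₗ[K] (∀ k : Fin 5, Win (PU U) (U.shift (k : ℤ))) where
  toFun φ k := Win.mk (PU.proj U k ∘ₗ φ.toLin) (FHom.comp (PU.proj_mem U k) φ.toLin_mem)
  invFun ψ := Win.mk (∑ k : Fin 5, PU.inj U k ∘ₗ (ψ k).toLin)
    ((FHom (PU U) (PU U)).sum_mem fun k _ =>
      FHom.comp (Y := U.shift (k : ℤ)) (PU.inj_mem U k) (ψ k).toLin_mem)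
  left_inv φ := by
    apply Win.ext'
    apply LinearMap.ext
    intro x
    have h1 : ∀ y : (PU U).X, ∑ k : Fin 5, PU.inj U k (PU.proj U k y) = y := fun y => by
      have : ∑ k : Fin 5, (Pi.single k (y k) : Fin 5 → U.X) = y := Finset.univ_sum_single y
      exact this
    have h2 := h1 (φ.toLin x)
    refine Eq.trans ?_ h2
    rw [Win.toLin_mk, LinearMap.sum_apply]
    rfl
  right_inv ψ := by
    funext k
    apply Win.ext'
    apply LinearMap.ext
    intro x
    rw [Win.toLin_mk, LinearMap.comp_apply, Win.toLin_mk, LinearMap.sum_apply, map_sum,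
      Finset.sum_eq_single k]
    · rw [LinearMap.comp_apply, PU.proj_inj_same]
    · intro j _ hj
      rw [LinearMap.comp_apply, PU.proj_inj_ne U (Ne.symm hj)]
    · simp
  map_add' φ ψ := rfl
  map_smul' c φ := rfl

theorem finrank_walg (K : Type u) [Field K] :
    Module.finrank K (WAlg (PU (UnivS.obj K K))) = 710 := by
  have hU := UnivS.isFree K K
  have hfin := UnivS.fil_finite K K
  rw [← (Win.selfK (PU (UnivS.obj K K))).finrank_eq, (winPi (UnivS.obj K K)).finrank_eq]
  have hw : ∀ k : Fin 5, Module.Finite K (Win (PU (UnivS.obj K K)) ((UnivS.obj K K).shift (k : ℤ))) :=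
    fun k => Win.finite (hU.mem 1) hU.isGen _ fun j => hfin _
  rw [Module.finrank_pi_fintype]
  have h1 : ∀ k : Fin 5, Module.finrank K (Win (PU (UnivS.obj K K)) ((UnivS.obj K K).shift (k : ℤ))) =
      ∑ j : Fin 5, dimU ((j : ℤ) - (k : ℤ)) := by
    intro k
    rw [finrank_win hU (hU.obj.shift k) fun j => hfin _]
    exact Finset.sum_congr rfl fun j _ => finrank_U K _
  rw [Finset.sum_congr rfl fun k _ => h1 k]
  decide

end

end Vale.Agent.P176.H807
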