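import Vale.Agent.P176.H807.Defs
import Vale.Agent.P176.MathlibUsed

set_option linter.all false

namespace Vale.Agent.P176.H807

variable {K A : Type*} [Field K] [Ring A] [Algebra K A]

theorem jacobson_field (K : Type*) [Field K] : Ring.jacobson K = ⊥ := by
  rw [← Ideal.jacobson_bot]
  have : (⊥ : Ideal K).IsMaximal := Ideal.bot_isMaximal
  exact Ideal.jacobson_eq_self_of_isMaximal

/-- The kernel of a surjective homomorphism to a power of `K` is the Jacobson radical as soon as
products of `r` elements of the kernel vanish. -/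
theorem isBasicOf {n r : ℕ} (π : A →ₐ[K] (Fin n → K)) (hπ : Function.Surjective π)
    (h : ∀ x : Fin r → A, (∀ i, π (x i) = 0) → (List.ofFn x).prod = 0) : IsBasicOf K A n r := by
  have key : ∀ a : A, π a = 0 ↔ a ∈ Ring.jacobson A := by
    intro a
    constructor
    · intro ha
      rw [← Ideal.jacobson_bot, Ideal.mem_jacobson_iff]
      intro y
      have h1 : IsNilpotent (y * a) := by
        refine ⟨r, ?_⟩
        have := h (fun _ => y * a) (fun _ => by rw [map_mul, ha, mul_zero])
        simpa [List.ofFn_const, List.prod_replicate] using this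
      obtain ⟨u, hu⟩ := h1.isUnit_one_add
      refine ⟨(u⁻¹ : Aˣ), ?_⟩
      have h2 : ((u⁻¹ : Aˣ) : A) * (1 + y * a) = 1 := by rw [← hu]; simp
      have h3 : ((u⁻¹ : Aˣ) : A) * y * a + ((u⁻¹ : Aˣ) : A) - 1 = 0 := by
        have : ((u⁻¹ : Aˣ) : A) * y * a + ((u⁻¹ : Aˣ) : A) = ((u⁻¹ : Aˣ) : A) * (1 + y * a) := by
          rw [mul_add, mul_one, mul_assoc, add_comm]
        rw [this, h2, sub_self]
      rw [h3]
      exact Submodule.zero_mem _
    · intro ha
      funext i
      let f : A →+* K := (Pi.evalRingHom (fun _ : Fin n => K) i).comp (π : A →+* (Fin n → K))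
      have hf : Function.Surjective f := (Function.surjective_eval i).comp hπ
      have : RingHomSurjective f := ⟨hf⟩
      have h1 := Ring.le_comap_jacobson f ha
      rw [jacobson_field] at h1
      exact h1
  exact ⟨⟨π, hπ, key⟩, fun x hx => h x fun i => (key _).2 (hx i)⟩

end Vale.Agent.P176.H807
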