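import Vale.Agent.P176.H807.TwoSided
import Vale.Agent.P176.H807.Rad
import Mathlib.Algebra.TrivSqZeroExt.Basic

set_option linter.all false

namespace Vale.Agent.P176.H807

open Vale.Agent.P176 MulOpposite

universe u

section

variable {K A : Type u} [Field K] [Ring A] [Algebra K A] (χ : A →ₐ[K] K)

/-- the linking bimodule -/
def Lnk (χ : A →ₐ[K] K) : Type u := K

instance : AddCommGroup (Lnk χ) := inferInstanceAs (AddCommGroup K)

instance : Module K (Lnk χ) := inferInstanceAs (Module K K)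

instance instLnkL : Module (A × Aᵐᵒᵖ) (Lnk χ) :=
  Module.compHom K ((χ : A →+* K).comp (RingHom.fst A Aᵐᵒᵖ))

instance instLnkR : Module (A × Aᵐᵒᵖ)ᵐᵒᵖ (Lnk χ) := Module.compHom K ((χ : A →+* K).comp (snd' A))

theorem Lnk.smul_l (r : A × Aᵐᵒᵖ) (m : Lnk χ) : r • m = (χ r.1 • m : Lnk χ) := rfl

theorem Lnk.smul_r (r : (A × Aᵐᵒᵖ)ᵐᵒᵖ) (m : Lnk χ) : r • m = (χ (unop (unop r).2) • m : Lnk χ) :=
  rfl

instance : SMulCommClass (A × Aᵐᵒᵖ) (A × Aᵐᵒᵖ)ᵐᵒᵖ (Lnk χ) := ⟨fun r s m => by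
  rw [Lnk.smul_l, Lnk.smul_r, Lnk.smul_l, Lnk.smul_r, smul_comm]⟩

instance : IsScalarTower K (A × Aᵐᵒᵖ) (Lnk χ) := ⟨fun c r m => by
  rw [Lnk.smul_l, Lnk.smul_l, Prod.smul_fst, map_smul, smul_assoc]⟩

instance : IsScalarTower K (A × Aᵐᵒᵖ)ᵐᵒᵖ (Lnk χ) := ⟨fun c r m => by
  rw [Lnk.smul_r, Lnk.smul_r, unop_smul, Prod.smul_snd, unop_smul, map_smul, smul_assoc]⟩

/-- `A`, its opposite, and a one-dimensional bimodule linking them. -/
abbrev TT : Type u := TrivSqZeroExt (A × Aᵐᵒᵖ) (Lnk χ)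

variable {χ}

/-- constructor -/
def TT.mk (a : A × Aᵐᵒᵖ) (m : Lnk χ) : TT χ := TrivSqZeroExt.inl a + TrivSqZeroExt.inr m

theorem TT.fst_mk (a : A × Aᵐᵒᵖ) (m : Lnk χ) : (TT.mk a m).fst = a := by
  simp [TT.mk]

theorem TT.snd_mk (a : A × Aᵐᵒᵖ) (m : Lnk χ) : (TT.mk a m).snd = m := by
  simp [TT.mk]

theorem TT.snd_mul (x y : TT χ) :
    (x * y).snd = χ x.fst.1 • y.snd + χ (unop y.fst.2) • x.snd := by
  rw [TrivSqZeroExt.snd_mul]
  rfl

theorem TT.ext' {x y : TT χ} (h1 : x.fst.1 = y.fst.1) (h2 : x.fst.2 = y.fst.2)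
    (h3 : x.snd = y.snd) : x = y := TrivSqZeroExt.ext (Prod.ext h1 h2) h3

/-- the swap -/
def TT.sw (x : TT χ) : TT χ := TT.mk (unop x.fst.2, op x.fst.1) x.snd

theorem TT.sw_sw (x : TT χ) : x.sw.sw = x := by
  apply TT.ext' <;> simp [TT.sw, TT.fst_mk, TT.snd_mk]

theorem TT.sw_add (x y : TT χ) : (x + y).sw = x.sw + y.sw := by
  apply TT.ext' <;> simp [TT.sw, TT.fst_mk, TT.snd_mk]

theorem TT.sw_mul (x y : TT χ) : (x * y).sw = y.sw * x.sw := by
  apply TT.ext'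
  · simp [TT.sw, TT.fst_mk, TT.snd_mk]
  · simp [TT.sw, TT.fst_mk, TT.snd_mk]
  · rw [TT.snd_mul]
    simp only [TT.sw, TT.fst_mk, TT.snd_mk, TT.snd_mul, unop_op]
    rw [add_comm]

/-- `TT` is self-opposite. -/
def TT.selfOp : TT χ ≃ₐ[K] (TT χ)ᵐᵒᵖ where
  toFun x := op x.sw
  invFun y := (unop y).sw
  left_inv x := TT.sw_sw x
  right_inv y := by
    apply unop_injective
    exact TT.sw_sw _
  map_mul' x y := by
    apply unop_injective
    exact TT.sw_mul x y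
  map_add' x y := by
    apply unop_injective
    exact TT.sw_add x y
  commutes' c := by
    apply unop_injective
    rw [MulOpposite.algebraMap_apply, unop_op, unop_op]
    apply TT.ext' <;> simp [TT.sw, TT.fst_mk, TT.snd_mk, TrivSqZeroExt.algebraMap_eq_inl']

/-- the projection to `A` -/
def TT.pr (χ : A →ₐ[K] K) : TT χ →+* A where
  toFun x := x.fst.1
  map_one' := by simp
  map_zero' := by simp
  map_mul' x y := by simp
  map_add' x y := by simp

/-- the section -/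
def TT.sec (χ : A →ₐ[K] K) : A →+ TT χ where
  toFun a := TT.mk (a, 0) 0
  map_zero' := by
    apply TT.ext' <;> simp [TT.fst_mk, TT.snd_mk]
  map_add' x y := by
    apply TT.ext' <;> simp [TT.fst_mk, TT.snd_mk]

theorem TT.pr_sec (a : A) : TT.pr χ (TT.sec χ a) = a := by
  change (TT.mk (a, 0) 0 : TT χ).fst.1 = a
  rw [TT.fst_mk]

theorem TT.sec_mul (r : TT χ) (a : A) : TT.sec χ (TT.pr χ r * a) = r * TT.sec χ a := by
  change (TT.mk (r.fst.1 * a, 0) 0 : TT χ) = r * TT.mk (a, 0) 0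
  apply TT.ext'
  · simp [TT.fst_mk]
  · simp [TT.fst_mk]
  · rw [TT.snd_mul, TT.snd_mk, TT.snd_mk, TT.fst_mk]
    simp

theorem TT.findim_top (χ : A →ₐ[K] K) (h : findim A = ⊤) : findim (TT χ) = ⊤ := by
  have h1 : Module.Projective (TT χ) (Res (TT.pr χ) A) :=
    proj_of_section (TT.sec χ) TT.pr_sec TT.sec_mul
  exact findim_top_of_surj (φ := TT.pr χ) (fun a => ⟨TT.sec χ a, TT.pr_sec a⟩) h

/-- the projection of the opposite to `A` -/
def TT.pr' (χ : A →ₐ[K] K) : (TT χ)ᵐᵒᵖ →+* A :=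
  (TT.pr χ).comp ((TT.selfOp (χ := χ)).symm : (TT χ)ᵐᵒᵖ →+* TT χ)

theorem TT.findim_op_top (χ : A →ₐ[K] K) (h : findim A = ⊤) : findim (TT χ)ᵐᵒᵖ = ⊤ := by
  let s : A →+ (TT χ)ᵐᵒᵖ :=
    { toFun := fun a => TT.selfOp (TT.sec χ a)
      map_zero' := by rw [map_zero, map_zero]
      map_add' := fun x y => by rw [map_add, map_add] }
  have hs : ∀ a, TT.pr' χ (s a) = a := fun a => by
    change TT.pr χ ((TT.selfOp (χ := χ)).symm (TT.selfOp (TT.sec χ a))) = a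
    rw [AlgEquiv.symm_apply_apply, TT.pr_sec]
  have hm : ∀ (r : (TT χ)ᵐᵒᵖ) (a : A), s (TT.pr' χ r * a) = r * s a := fun r a => by
    change TT.selfOp (TT.sec χ (TT.pr χ ((TT.selfOp (χ := χ)).symm r) * a)) =
      r * TT.selfOp (TT.sec χ a)
    rw [TT.sec_mul, map_mul, AlgEquiv.apply_symm_apply]
  have h1 : Module.Projective (TT χ)ᵐᵒᵖ (Res (TT.pr' χ) A) := proj_of_section s hs hm
  exact findim_top_of_surj (φ := TT.pr' χ) (fun a => ⟨s a, hs a⟩) h

/-- the linear equivalence with the product -/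
def TT.lin (χ : A →ₐ[K] K) : TT χ ≃ₗ[K] ((A × Aᵐᵒᵖ) × Lnk χ) where
  toFun x := (x.fst, x.snd)
  invFun y := TT.mk y.1 y.2
  left_inv x := by apply TT.ext' <;> simp [TT.fst_mk, TT.snd_mk]
  right_inv y := by
    apply Prod.ext
    · exact TT.fst_mk _ _
    · exact TT.snd_mk _ _
  map_add' x y := rfl
  map_smul' c x := rfl

theorem TT.finite (χ : A →ₐ[K] K) [Module.Finite K A] : Module.Finite K (TT χ) := by
  have h1 : Module.Finite K Aᵐᵒᵖ := Module.Finite.equiv (MulOpposite.opLinearEquiv K)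
  have h2 : Module.Finite K (Lnk χ) := inferInstanceAs (Module.Finite K K)
  exact Module.Finite.equiv (TT.lin χ).symm

theorem TT.finrank (χ : A →ₐ[K] K) [Module.Finite K A] :
    Module.finrank K (TT χ) = 2 * Module.finrank K A + 1 := by
  have h1 : Module.Finite K Aᵐᵒᵖ := Module.Finite.equiv (MulOpposite.opLinearEquiv K)
  have h2 : Module.Finite K (Lnk χ) := inferInstanceAs (Module.Finite K K)
  have h3 : Module.finrank K (Lnk χ) = 1 := Module.finrank_self K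
  rw [(TT.lin χ).finrank_eq, Module.finrank_prod, Module.finrank_prod, h3,
    ← (MulOpposite.opLinearEquiv K : A ≃ₗ[K] Aᵐᵒᵖ).finrank_eq]
  ring

end

end Vale.Agent.P176.H807
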