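import Vale.Agent.P176.H807.RadB
import Vale.Agent.P176.H807.Dim
import Vale.Agent.P176.H807.Link

set_option linter.all false

namespace Vale.Agent.P176.H807

open Vale.Agent.P176 MulOpposite

universe u

section

variable {K : Type u} [Field K] {U : FMod K (Fin 6)} {one : U.X} {Vp : Submodule K U.X}
  {ε : U.X →ₗ[K] K} (H : HasRad U one Vp ε)

include H

theorem HasRad.connected (hmono : Monotone U.Fil) : IsConnectedAlg (WAlg (PU U)) := by
  have hid : ∀ k l : Fin 5, (k : ℕ) ≤ l → PU.inj U k ∘ₗ PU.proj U l ∈ FEnd (PU U) := by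
    intro k l hkl
    refine mem_FEnd.2 (FHom.comp (Y := U.shift (k : ℤ)) (PU.inj_mem U k) ?_)
    have h1 := PU.proj_mem U l
    exact ⟨h1.1, fun i x hx => hmono (by omega) (h1.2 i x hx)⟩
  refine ⟨⟨0, 1, fun h => ?_⟩, fun e he hc => ?_⟩
  · have h1 := congrArg (fun a => H.pi a 0) h
    simp at h1
  · obtain ⟨⟨z, hz⟩, rfl⟩ := op_surjective e
    have he' : z * z = z := congrArg (fun a : WAlg (PU U) => ((unop a : FEnd (PU U)) :
      Module.End K (PU U).X)) he
    have hc' : ∀ a ∈ FEnd (PU U), z * a = a * z := fun a ha =>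
      congrArg (fun a : WAlg (PU U) => ((unop a : FEnd (PU U)) : Module.End K (PU U).X))
        (hc (op ⟨a, ha⟩))
    -- commutation with the matrix units
    have hcu : ∀ k l : Fin 5, (k : ℕ) ≤ l → ∀ x : U.X,
        z (PU.inj U k x) = PU.inj U k (PU.proj U l (z (PU.inj U l x))) := by
      intro k l hkl x
      have h1 := LinearMap.congr_fun (hc' _ (hid k l hkl)) (PU.inj U l x)
      change z (PU.inj U k (PU.proj U l (PU.inj U l x))) = _ at h1
      rw [PU.proj_inj_same] at h1
      exact h1
    let w : U.X →ₗ[K] U.X := cmp z 4 4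
    have hw : IsOpHom U U w := cmp_op hz 4 4
    have h4 : ∀ k : Fin 5, ∀ x, z (PU.inj U k x) = PU.inj U k (w x) := fun k x =>
      hcu k 4 (by have := k.2; change (k : ℕ) ≤ 4; omega) x
    have hww : ∀ x, w (w x) = w x := by
      intro x
      have h1 := LinearMap.congr_fun he' (PU.inj U 4 x)
      rw [Module.End.mul_apply, h4, h4] at h1
      have h2 := congrArg (PU.proj U 4) h1
      rwa [PU.proj_inj_same, PU.proj_inj_same] at h2
    have hw0 : w one ∈ U.Fil 0 := by
      have := cmp_one hz H.one_mem 4 4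
      simpa using this
    have h5 := H.eps_zero _ hw0
    have h6 : ε (w one) * ε (w one) = ε (w one) := by
      have h7 := H.epsV _ (H.homV _ hw _ h5)
      rw [map_sub, map_sub, map_smul, map_smul, sub_eq_zero, hww, smul_eq_mul] at h7
      exact h7.symm
    have h8 : ε (w one) = 0 ∨ ε (w one) = 1 := by
      have : ε (w one) * (ε (w one) - 1) = 0 := by rw [mul_sub, h6, mul_one, sub_self]
      rcases mul_eq_zero.1 this with h | h
      · exact Or.inl h
      · exact Or.inr (sub_eq_zero.1 h)
    rcases h8 with h8 | h8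
    · left
      rw [h8, zero_smul, sub_zero] at h5
      have h9 : ∀ x, w x = 0 := by
        intro x
        rw [← hww]
        exact H.homV0 _ hw h5 _ (H.homV' _ hw h5 x)
      apply unop_injective
      apply Subtype.ext
      change z = 0
      refine PU.lin_ext fun k => LinearMap.ext fun x => ?_
      change z (PU.inj U k x) = 0
      rw [h4, h9, map_zero]
    · right
      rw [h8, one_smul] at h5
      have hw' : IsOpHom U U (LinearMap.id - w : U.X →ₗ[K] U.X) := by
        intro s x
        change U.op s x - w (U.op s x) = U.op s (x - w x)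
        rw [map_sub, hw s x]
      have h5' : (LinearMap.id - w : U.X →ₗ[K] U.X) one ∈ Vp := by
        have := Vp.neg_mem h5
        rw [neg_sub] at this
        exact this
      have h9 : ∀ x, w x = x := by
        intro x
        have h10 := H.homV0 _ hw' h5' _ (H.homV' _ hw' h5' x)
        change (x - w x) - w (x - w x) = 0 at h10
        rw [map_sub, hww, sub_self, sub_zero, sub_eq_zero] at h10
        exact h10.symm
      apply unop_injective
      apply Subtype.ext
      change z = 1
      refine PU.lin_ext fun k => LinearMap.ext fun x => ?_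
      change z (PU.inj U k x) = PU.inj U k x
      rw [h4, h9]

end

section

variable {K A : Type u} [Field K] [Ring A] [Algebra K A]

/-- the value in `K` -/
def Lnk.val (χ : A →ₐ[K] K) : Lnk χ →ₗ[K] K where
  toFun m := m
  map_add' _ _ := rfl
  map_smul' _ _ := rfl

/-- the generator -/
def Lnk.gen (χ : A →ₐ[K] K) : Lnk χ := (1 : K)

theorem Lnk.val_gen (χ : A →ₐ[K] K) : Lnk.val χ (Lnk.gen χ) = 1 := rfl

theorem Lnk.val_inj {χ : A →ₐ[K] K} {x y : Lnk χ} (h : Lnk.val χ x = Lnk.val χ y) : x = y := h

theorem TT.connected (χ : A →ₐ[K] K) (h : IsConnectedAlg A) : IsConnectedAlg (TT χ) := by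
  have := h.1
  refine ⟨⟨0, 1, fun h1 => ?_⟩, fun e he hc => ?_⟩
  · have h2 := congrArg (fun x : TT χ => x.fst.1) h1
    simp at h2
  · have h1 : e.fst.1 = 0 ∨ e.fst.1 = 1 := by
      refine h.2 _ ?_ fun a => ?_
      · have := congrArg (fun x : TT χ => x.fst.1) he
        simpa using this
      · have := congrArg (fun x : TT χ => x.fst.1) (hc (TT.mk (a, 0) 0))
        simpa [TT.fst_mk] using this
    have h2 : unop e.fst.2 = 0 ∨ unop e.fst.2 = 1 := by
      refine h.2 _ ?_ fun a => ?_
      · have := congrArg (fun x : TT χ => unop x.fst.2) he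
        simpa using this
      · have := congrArg (fun x : TT χ => unop x.fst.2) (hc (TT.mk (0, op a) 0))
        simpa [TT.fst_mk] using this.symm
    have h3 : (χ (unop e.fst.2) : K) = χ e.fst.1 := by
      have h4 := congrArg (fun x : TT χ => Lnk.val χ x.snd) (hc (TT.mk (0, 0) (Lnk.gen χ)))
      simp only [TT.snd_mul, TT.fst_mk, TT.snd_mk, unop_zero, map_zero, zero_smul, zero_add,
        add_zero, map_smul, Lnk.val_gen, smul_eq_mul, mul_one] at h4
      exact h4
    have h6 : χ e.fst.1 * Lnk.val χ e.snd + χ (unop e.fst.2) * Lnk.val χ e.snd =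
        Lnk.val χ e.snd := by
      have := congrArg (fun x : TT χ => Lnk.val χ x.snd) he
      simp only [TT.snd_mul, map_add, map_smul, smul_eq_mul] at this
      exact this
    rcases h1 with h1 | h1 <;> rcases h2 with h2 | h2
    · left
      rw [h1, h2, map_zero, zero_mul, add_zero] at h6
      apply TT.ext'
      · exact h1
      · exact unop_injective h2
      · exact Lnk.val_inj h6.symm
    · rw [h1, h2, map_zero, map_one] at h3
      exact absurd h3 one_ne_zero
    · rw [h1, h2, map_zero, map_one] at h3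
      exact absurd h3.symm one_ne_zero
    · right
      rw [h1, h2, map_one, one_mul] at h6
      apply TT.ext'
      · exact h1
      · exact unop_injective h2
      · exact Lnk.val_inj (add_eq_left.1 h6)

/-- concatenation -/
def ap {n : ℕ} (f g : Fin n → K) (i : Fin (n + n)) : K :=
  if h : (i : ℕ) < n then f ⟨i, h⟩ else g ⟨(i : ℕ) - n, by omega⟩

theorem ap_add {n : ℕ} (f g f' g' : Fin n → K) : ap (f + f') (g + g') = ap f g + ap f' g' := by
  funext i
  unfold ap
  by_cases h : (i : ℕ) < n <;> simp [h, ap]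

theorem ap_mul {n : ℕ} (f g f' g' : Fin n → K) : ap (f * f') (g * g') = ap f g * ap f' g' := by
  funext i
  unfold ap
  by_cases h : (i : ℕ) < n <;> simp [h, ap]

theorem ap_const {n : ℕ} (c : K) : ap (fun _ : Fin n => c) (fun _ => c) = fun _ => c := by
  funext i
  unfold ap
  by_cases h : (i : ℕ) < n <;> simp [h]

theorem ap_left {n : ℕ} (f g : Fin n → K) (i : Fin n) : ap f g ⟨i, by omega⟩ = f i := by
  unfold ap
  simp

theorem ap_right {n : ℕ} (f g : Fin n → K) (i : Fin n) : ap f g ⟨n + i, by omega⟩ = g i := by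
  unfold ap
  simp

/-- the map onto the semisimple quotient -/
def TT.pi (χ : A →ₐ[K] K) {n : ℕ} (π : A →ₐ[K] (Fin n → K)) : TT χ →ₐ[K] (Fin (n + n) → K) where
  toFun x := ap (π x.fst.1) (π (unop x.fst.2))
  map_one' := by
    have h := ap_const (n := n) (1 : K)
    simp only [TrivSqZeroExt.fst_one, Prod.fst_one, Prod.snd_one, unop_one, map_one]
    exact h
  map_mul' x y := by
    rw [TrivSqZeroExt.fst_mul, Prod.fst_mul, Prod.snd_mul, unop_mul, map_mul, map_mul, ← ap_mul,
      mul_comm (π (unop y.fst.2))]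
  map_zero' := by
    have h := ap_const (n := n) (0 : K)
    simp only [TrivSqZeroExt.fst_zero, Prod.fst_zero, Prod.snd_zero, unop_zero, map_zero]
    exact h
  map_add' x y := by
    rw [TrivSqZeroExt.fst_add, Prod.fst_add, Prod.snd_add, unop_add, map_add, map_add, ← ap_add]
  commutes' c := by
    have h := ap_const (n := n) c
    have h1 : (algebraMap K (TT χ) c).fst = algebraMap K (A × Aᵐᵒᵖ) c := by
      rw [TrivSqZeroExt.algebraMap_eq_inl', TrivSqZeroExt.fst_inl]
    have h2 : π (algebraMap K (A × Aᵐᵒᵖ) c).1 = fun _ => c := π.commutes c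
    have h3 : π (unop (algebraMap K (A × Aᵐᵒᵖ) c).2) = fun _ => c := π.commutes c
    rw [h1, h2, h3, h]
    rfl

theorem TT.pi_eq_zero (χ : A →ₐ[K] K) {n : ℕ} (π : A →ₐ[K] (Fin n → K)) {x : TT χ}
    (h : TT.pi χ π x = 0) : π x.fst.1 = 0 ∧ π (unop x.fst.2) = 0 := by
  constructor
  · funext i
    exact (ap_left _ _ i).symm.trans (congrFun h _)
  · funext i
    exact (ap_right _ _ i).symm.trans (congrFun h _)

theorem TT.pi_surjective (χ : A →ₐ[K] K) {n : ℕ} (π : A →ₐ[K] (Fin n → K))
    (hπ : Function.Surjective π) : Function.Surjective (TT.pi χ π) := by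
  intro c
  obtain ⟨a, ha⟩ := hπ fun i => c ⟨i, by omega⟩
  obtain ⟨b, hb⟩ := hπ fun i => c ⟨n + i, by omega⟩
  refine ⟨TT.mk (a, op b) 0, ?_⟩
  funext i
  change ap (π (TT.mk (a, op b) 0 : TT χ).fst.1)
    (π (unop (TT.mk (a, op b) 0 : TT χ).fst.2)) i = c i
  rw [TT.fst_mk]
  change ap (π a) (π b) i = c i
  rw [ha, hb]
  unfold ap
  by_cases h : (i : ℕ) < n
  · simp [h]
  · rw [dif_neg h]
    refine congrArg c (Fin.ext ?_)
    change n + ((i : ℕ) - n) = i
    omega

theorem TT.isBasicOf {n r : ℕ} (π : A →ₐ[K] (Fin n → K)) (hπ : Function.Surjective π)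
    (h : ∀ x : Fin (r + 2) → A, (∀ i, π (x i) = 0) → (List.ofFn x).prod = 0)
    (χ : A →ₐ[K] K) (hχ : ∀ a, π a = 0 → χ a = 0) : IsBasicOf K (TT χ) (n + n) (r + 2) := by
  refine H807.isBasicOf (TT.pi χ π) (TT.pi_surjective χ π hπ) fun x hx => ?_
  have h1 : ∀ i, π (x i).fst.1 = 0 ∧ π (unop (x i).fst.2) = 0 := fun i =>
    TT.pi_eq_zero χ π (hx i)
  have hfst : ∀ (m : ℕ) (y : Fin m → TT χ), ((List.ofFn y).prod).fst.1 =
      (List.ofFn fun i => (y i).fst.1).prod := by
    intro m
    induction m with
    | zero => intro y; simp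
    | succ m ih => intro y; simp [List.ofFn_succ, ih]
  have hl : ∀ l : List A, l.length = r + 2 → (∀ a ∈ l, π a = 0) → l.prod = 0 := by
    intro l hlen hl
    have e1 : List.ofFn (fun i : Fin (r + 2) => l.get (i.cast hlen.symm)) = l := by
      apply List.ext_get
      · rw [List.length_ofFn, hlen]
      · intro n h1 h2
        rw [List.get_eq_getElem, List.getElem_ofFn, List.get_eq_getElem, List.get_eq_getElem]
        rfl
    rw [← e1]
    exact h _ fun i => hl _ (List.get_mem _ _)
  have hsnd : unop ((List.ofFn x).prod).fst.2 = 0 := by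
    have e1 : ∀ (m : ℕ) (y : Fin m → TT χ), ((List.ofFn y).prod).fst.2 =
        (List.ofFn fun i => (y i).fst.2).prod := by
      intro m
      induction m with
      | zero => intro y; simp
      | succ m ih => intro y; simp [List.ofFn_succ, ih]
    rw [e1, MulOpposite.unop_list_prod]
    apply hl
    · simp
    · intro a ha
      rw [List.mem_reverse, List.mem_map] at ha
      obtain ⟨b, hb, rfl⟩ := ha
      rw [List.mem_ofFn] at hb
      obtain ⟨i, rfl⟩ := hb
      exact (h1 i).2
  apply TT.ext'
  · rw [hfst, h _ fun i => (h1 i).1]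
    rfl
  · apply unop_injective
    rw [hsnd]
    rfl
  · rw [List.ofFn_succ, List.prod_cons, TT.snd_mul, hχ _ (h1 0).1]
    have h2 : (unop ((List.ofFn fun i : Fin (r + 1) => x i.succ).prod).fst.2 : A) =
      unop ((x 1).fst.2 * ((List.ofFn fun i : Fin r => x i.succ.succ).prod).fst.2) := by
      rw [List.ofFn_succ, List.prod_cons]
      rfl
    rw [h2, unop_mul, map_mul, hχ _ (h1 1).2, mul_zero, zero_smul, zero_smul, add_zero]
    rfl

end

end Vale.Agent.P176.H807
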