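import Vale.Agent.P176.Statement

/-!
# P176: shape of the counterexamples

`IsBasicOf K A n r`: `A ⧸ rad A` is the product of `n` copies of `K`, and every product of `r`
elements of the Jacobson radical `rad A` vanishes. `IsConnectedAlg A`: `A` is not a product of two
nonzero rings.
-/

namespace Vale.Agent.P176.H807

/-- `A` is a basic `K`-algebra with `n` simple modules and radical length at most `r`: there is a
surjective homomorphism of `K`-algebras from `A` onto the product of `n` copies of `K`, whose
kernel is the Jacobson radical of `A`, and the product of any `r` elements of the Jacobson radical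
of `A` is zero. -/
def IsBasicOf (K A : Type*) [Field K] [Ring A] [Algebra K A] (n r : ℕ) : Prop :=
  (∃ π : A →ₐ[K] (Fin n → K), Function.Surjective π ∧ ∀ a : A, π a = 0 ↔ a ∈ Ring.jacobson A) ∧
    ∀ x : Fin r → A, (∀ i, x i ∈ Ring.jacobson A) → (List.ofFn x).prod = 0

/-- `A` is connected: it is not zero and its only central idempotents are `0` and `1`. -/
def IsConnectedAlg (A : Type*) [Ring A] : Prop :=
  Nontrivial A ∧ ∀ e : A, e * e = e → (∀ a : A, a * e = e * a) → e = 0 ∨ e = 1

end Vale.Agent.P176.H807
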