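import Vale.Agent.P176.H807.Conn

/-!
# P176: explicit counterexamples to the finitistic dimension conjecture
-/

set_option linter.all false

namespace Vale.Agent.P176.H807

open Vale.Agent.P176 MulOpposite

universe u

attribute [local instance] UnivS.instC0 UnivS.instC0Mod

variable (K : Type u) [Field K]

theorem findim_walg [CharZero K] : findim (WAlg (PU (UnivS.obj K K))) = ⊤ :=
  (mTower K).findim_eq_top (UnivS.isFree K K) (fun m => good_M K m 0 (by omega))
    (fun m => good_M K m 1 (by omega))

theorem finite_walg : Module.Finite K (WAlg (PU (UnivS.obj K K))) :=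
  WAlg.finite ((UnivS.isFree K K).mem 1) (UnivS.isFree K K).isGen (UnivS.fil_finite K K)

theorem connected_walg : IsConnectedAlg (WAlg (PU (UnivS.obj K K))) :=
  (hasRad_walg K).connected (UnivS.isFree K K).obj.fil.mono

/-- a character of the algebra -/
noncomputable def chi : WAlg (PU (UnivS.obj K K)) →ₐ[K] K :=
  (Pi.evalAlgHom K (fun _ : Fin 5 => K) 0).comp (hasRad_walg K).pi

theorem isBasicOf_TT : IsBasicOf K (TT (chi K)) 10 7 :=
  TT.isBasicOf (r := 5) (hasRad_walg K).pi (hasRad_walg K).pi_surjective
    (hasRad_walg K).prod_eq_zero (chi K) fun a ha => congrFun ha 0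

/-- The main counterexample: dimension `710`, connected, basic with five simple modules, radical
of seventh power zero. -/
theorem exists_quant [CharZero K] :
    ∃ (A : Type u) (_ : Ring A) (_ : Algebra K A), Module.Finite K A ∧
      Module.finrank K A = 710 ∧ IsConnectedAlg A ∧ IsBasicOf K A 5 7 ∧ findim A = ⊤ :=
  ⟨WAlg (PU (UnivS.obj K K)), inferInstance, inferInstance, finite_walg K, finrank_walg K,
    connected_walg K, isBasicOf_walg K, findim_walg K⟩

/-- The self-opposite counterexample: dimension `1421`, connected, basic with ten simple modules,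
radical of seventh power zero. -/
theorem exists_quant_two_sided [CharZero K] :
    ∃ (A : Type u) (_ : Ring A) (_ : Algebra K A), Module.Finite K A ∧
      Module.finrank K A = 1421 ∧ IsConnectedAlg A ∧ IsBasicOf K A 10 7 ∧
      Nonempty (A ≃ₐ[K] Aᵐᵒᵖ) ∧ findim A = ⊤ ∧ findim Aᵐᵒᵖ = ⊤ := by
  have h1 := finite_walg K
  refine ⟨TT (chi K), inferInstance, inferInstance, TT.finite (chi K), ?_,
    TT.connected (chi K) (connected_walg K), isBasicOf_TT K, ⟨TT.selfOp⟩,
    TT.findim_top (chi K) (findim_walg K), TT.findim_op_top (chi K) (findim_walg K)⟩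
  rw [TT.finrank, finrank_walg]

end Vale.Agent.P176.H807
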