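import Vale.Agent.P176.Bdl.B1
import Vale.Agent.P176.H807.Rad

set_option linter.all false

namespace Vale.Agent.P176.H807

open Vale.Agent.P176

universe u

section

variable {K : Type u} [Field K]

/-- The data which determine the radical of the window algebra. -/
structure HasRad (U : FMod K (Fin 6)) (one : U.X) (Vp : Submodule K U.X) (ε : U.X →ₗ[K] K) :
    Prop where
  homV : ∀ φ : U.X →ₗ[K] U.X, IsOpHom U U φ → ∀ x ∈ Vp, φ x ∈ Vp
  homV' : ∀ φ : U.X →ₗ[K] U.X, IsOpHom U U φ → φ one ∈ Vp → ∀ x, φ x ∈ Vp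
  homV0 : ∀ φ : U.X →ₗ[K] U.X, IsOpHom U U φ → φ one ∈ Vp → ∀ x ∈ Vp, φ x = 0
  hom0 : ∀ φ : U.X →ₗ[K] U.X, IsOpHom U U φ → φ one = 0 → ∀ x, φ x = 0
  one_mem : one ∈ U.Fil 0
  neg : ∀ i < (0 : ℤ), ∀ x ∈ U.Fil i, x ∈ Vp
  neg2 : ∀ i < (-1 : ℤ), ∀ x ∈ U.Fil i, x = 0
  epsV : ∀ x ∈ Vp, ε x = 0
  eps_one : ε one = 1
  eps_zero : ∀ x ∈ U.Fil 0, x - ε x • one ∈ Vp

/-- matrix entries -/
def cmp {U : FMod K (Fin 6)} (a : Module.End K (PU U).X) (m k : Fin 5) : U.X →ₗ[K] U.X :=
  PU.proj U m ∘ₗ a ∘ₗ PU.inj U k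

section

variable {U : FMod K (Fin 6)} {one : U.X} {Vp : Submodule K U.X} {ε : U.X →ₗ[K] K}

theorem cmp_mem {a : Module.End K (PU U).X} (ha : a ∈ FEnd (PU U)) (m k : Fin 5) :
    cmp a m k ∈ FHom (U.shift (k : ℤ)) (U.shift (m : ℤ)) :=
  FHom.comp (PU.proj_mem U m) (FHom.comp (mem_FEnd.1 ha) (PU.inj_mem U k))

theorem cmp_op {a : Module.End K (PU U).X} (ha : a ∈ FEnd (PU U)) (m k : Fin 5) :
    IsOpHom U U (cmp a m k) := (cmp_mem ha m k).1

theorem cmp_one {a : Module.End K (PU U).X} (ha : a ∈ FEnd (PU U)) (h0 : one ∈ U.Fil 0)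
    (m k : Fin 5) : cmp a m k one ∈ U.Fil ((k : ℤ) - (m : ℤ)) := by
  have h1 : one ∈ (U.shift (k : ℤ)).Fil (k : ℤ) := by
    change one ∈ U.Fil ((k : ℤ) - (k : ℤ))
    simpa using h0
  exact (cmp_mem ha m k).2 _ _ h1

theorem sum_inj_proj (x : (PU U).X) : ∑ l : Fin 5, PU.inj U l (PU.proj U l x) = x := by
  have : ∑ k : Fin 5, (Pi.single k (x k) : Fin 5 → U.X) = x := Finset.univ_sum_single x
  exact this

theorem proj_apply (a : Module.End K (PU U).X) (m : Fin 5) (x : (PU U).X) :
    PU.proj U m (a x) = ∑ l : Fin 5, cmp a m l (PU.proj U l x) := by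
  conv_lhs => rw [← sum_inj_proj x]
  rw [map_sum, map_sum]
  rfl

theorem cmp_mul (a b : Module.End K (PU U).X) (m k : Fin 5) (x : U.X) :
    cmp (a * b) m k x = ∑ l : Fin 5, cmp a m l (cmp b l k x) :=
  proj_apply a m (b (PU.inj U k x))

variable (H : HasRad U one Vp ε)

include H

theorem HasRad.cmp_V {a : Module.End K (PU U).X} (ha : a ∈ FEnd (PU U)) {m k : Fin 5}
    (h : (k : ℕ) < m) (x : U.X) : cmp a m k x ∈ Vp := by
  refine H.homV' _ (cmp_op ha m k) (H.neg _ ?_ _ (cmp_one ha H.one_mem m k)) x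
  omega

theorem HasRad.eps_mul {a b : Module.End K (PU U).X} (ha : a ∈ FEnd (PU U))
    (hb : b ∈ FEnd (PU U)) (k : Fin 5) :
    ε (cmp (a * b) k k one) = ε (cmp a k k one) * ε (cmp b k k one) := by
  rw [cmp_mul, map_sum, Finset.sum_eq_single k]
  · have h1 : cmp b k k one ∈ U.Fil 0 := by
      have := cmp_one hb H.one_mem k k
      simpa using this
    have h2 := H.eps_zero _ h1
    have h3 := H.epsV _ (H.homV _ (cmp_op ha k k) _ h2)
    rw [map_sub, map_sub, map_smul, map_smul, sub_eq_zero] at h3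
    rw [h3, smul_eq_mul, mul_comm]
  · intro l _ hl
    apply H.epsV
    rcases lt_or_gt_of_ne hl with h | h
    · exact H.cmp_V ha (by exact_mod_cast h) _
    · exact H.homV _ (cmp_op ha k l) _ (H.cmp_V hb (by exact_mod_cast h) _)
  · simp

/-- the map onto the semisimple quotient -/
def HasRad.pi : WAlg (PU U) →ₐ[K] (Fin 5 → K) where
  toFun a k := ε (cmp (a.unop : Module.End K (PU U).X) k k one)
  map_one' := by
    funext k
    have : cmp (1 : Module.End K (PU U).X) k k one = one := PU.proj_inj_same U k one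
    change ε (cmp (1 : Module.End K (PU U).X) k k one) = 1
    rw [this, H.eps_one]
  map_mul' a b := by
    funext k
    change ε (cmp ((b.unop : Module.End K (PU U).X) * (a.unop : Module.End K (PU U).X)) k k one) = _
    rw [H.eps_mul b.unop.2 a.unop.2, mul_comm]
    rfl
  map_zero' := by
    funext k
    change ε (cmp (0 : Module.End K (PU U).X) k k one) = 0
    simp [cmp]
  map_add' a b := by
    funext k
    change ε (cmp ((a.unop : Module.End K (PU U).X) + (b.unop : Module.End K (PU U).X)) k k one) = _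
    simp [cmp]
  commutes' c := by
    funext k
    change ε (cmp (algebraMap K (Module.End K (PU U).X) c) k k one) = c
    have : cmp (algebraMap K (Module.End K (PU U).X) c) k k one = c • one := by
      have h1 : PU.proj U k (c • PU.inj U k one) = c • one := by
        rw [map_smul, PU.proj_inj_same]
      exact h1
    rw [this, map_smul, H.eps_one, smul_eq_mul, mul_one]

theorem HasRad.pi_apply (a : WAlg (PU U)) (k : Fin 5) :
    H.pi a k = ε (cmp (a.unop : Module.End K (PU U).X) k k one) := rfl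

theorem HasRad.pi_surjective : Function.Surjective H.pi := by
  intro c
  let φ : Module.End K (PU U).X := ∑ l : Fin 5, c l • (PU.inj U l ∘ₗ PU.proj U l)
  have hφ : φ ∈ FEnd (PU U) := mem_FEnd.2 ((FHom (PU U) (PU U)).sum_mem fun l _ =>
    (FHom (PU U) (PU U)).smul_mem _ (FHom.comp (Y := U.shift (l : ℤ)) (PU.inj_mem U l)
      (PU.proj_mem U l)))
  refine ⟨MulOpposite.op ⟨φ, hφ⟩, ?_⟩
  funext k
  rw [H.pi_apply]
  change ε (cmp φ k k one) = c k
  have h1 : cmp φ k k one = c k • one := by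
    change PU.proj U k (φ (PU.inj U k one)) = c k • one
    rw [LinearMap.sum_apply, map_sum, Finset.sum_eq_single k]
    · rw [LinearMap.smul_apply, map_smul, LinearMap.comp_apply, PU.proj_inj_same, PU.proj_inj_same]
    · intro l _ hl
      rw [LinearMap.smul_apply, map_smul, LinearMap.comp_apply, PU.proj_inj_ne U (Ne.symm hl)]
      simp
    · simp
  rw [h1, map_smul, H.eps_one, smul_eq_mul, mul_one]

omit H in
/-- the radical filtration -/
def Zn (U : FMod K (Fin 6)) (Vp : Submodule K U.X) (n : ℕ) : Set (PU U).X :=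
  {x | ∀ k : Fin 5, (n < (k : ℕ) + 1 → PU.proj U k x = 0) ∧ (n < (k : ℕ) + 3 → PU.proj U k x ∈ Vp)}

theorem HasRad.step {a : Module.End K (PU U).X} (ha : a ∈ FEnd (PU U))
    (h0 : ∀ k, ε (cmp a k k one) = 0) {n : ℕ} {x : (PU U).X} (hx : x ∈ Zn U Vp (n + 1)) :
    a x ∈ Zn U Vp n := by
  have hdiag : ∀ m k : Fin 5, (k : ℕ) ≤ m → cmp a m k one ∈ Vp := by
    intro m k hmk
    rcases Nat.lt_or_ge (k : ℕ) (m : ℕ) with h | h
    · exact H.cmp_V ha h _
    · have hk : m = k := Fin.ext (le_antisymm h hmk)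
      subst hk
      have h1 : cmp a m m one ∈ U.Fil 0 := by
        have := cmp_one ha H.one_mem m m
        simpa using this
      have h2 := H.eps_zero _ h1
      rwa [h0 m, zero_smul, sub_zero] at h2
  intro m
  constructor
  · intro hm
    rw [proj_apply]
    refine Finset.sum_eq_zero fun l _ => ?_
    obtain ⟨h1, h2⟩ := hx l
    rcases Nat.lt_or_ge (n + 1) (l + 1) with h | h
    · rw [h1 h, map_zero]
    · rcases Nat.lt_or_ge (n + 1) (l + 3) with h' | h'
      · exact H.homV0 _ (cmp_op ha m l) (hdiag m l (by omega)) _ (h2 h')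
      · refine H.hom0 _ (cmp_op ha m l) ?_ _
        refine H.neg2 _ ?_ _ (cmp_one ha H.one_mem m l)
        omega
  · intro hm
    rw [proj_apply]
    refine Submodule.sum_mem _ fun l _ => ?_
    obtain ⟨h1, h2⟩ := hx l
    rcases Nat.lt_or_ge (n + 1) (l + 3) with h' | h'
    · exact H.homV _ (cmp_op ha m l) _ (h2 h')
    · exact H.homV' _ (cmp_op ha m l) (hdiag m l (by omega)) _

theorem HasRad.prod_eq_zero (x : Fin 7 → WAlg (PU U)) (hx : ∀ i, H.pi (x i) = 0) :
    (List.ofFn x).prod = 0 := by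
  have h0 : ∀ i k, ε (cmp ((x i).unop : Module.End K (PU U).X) k k one) = 0 := fun i k =>
    congrFun (hx i) k
  have hs : ∀ i : Fin 7, ∀ n (y : (PU U).X), y ∈ Zn U Vp (n + 1) →
      ((x i).unop : Module.End K (PU U).X) y ∈ Zn U Vp n := fun i n y hy =>
    H.step (x i).unop.2 (h0 i) hy
  apply MulOpposite.unop_injective
  apply Subtype.ext
  apply LinearMap.ext
  intro y
  have h7 : y ∈ Zn U Vp 7 := by
    intro k
    have := k.2
    exact ⟨fun h => by omega, fun h => by omega⟩
  have e1 : ((((List.ofFn x).prod).unop : FEnd (PU U)) : Module.End K (PU U).X) y =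
      ((x 6).unop : Module.End K (PU U).X) (((x 5).unop : Module.End K (PU U).X)
        (((x 4).unop : Module.End K (PU U).X) (((x 3).unop : Module.End K (PU U).X)
          (((x 2).unop : Module.End K (PU U).X) (((x 1).unop : Module.End K (PU U).X)
            (((x 0).unop : Module.End K (PU U).X) y)))))) := by
    simp only [List.ofFn_succ, List.ofFn_zero, List.prod_cons, List.prod_nil, mul_one,
      MulOpposite.unop_mul, MulMemClass.coe_mul, Module.End.mul_apply]
    rfl
  have h := hs 6 0 _ (hs 5 1 _ (hs 4 2 _ (hs 3 3 _ (hs 2 4 _ (hs 1 5 _ (hs 0 6 _ h7))))))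
  rw [← e1] at h
  have h2 : ∀ k : Fin 5, PU.proj U k
      (((((List.ofFn x).prod).unop : FEnd (PU U)) : Module.End K (PU U).X) y) = 0 := fun k =>
    (h k).1 (by omega)
  rw [← sum_inj_proj (((((List.ofFn x).prod).unop : FEnd (PU U)) : Module.End K (PU U).X) y)]
  rw [Finset.sum_congr rfl fun k _ => by rw [h2 k, map_zero]]
  simp

theorem HasRad.isBasicOf : IsBasicOf K (WAlg (PU U)) 5 7 :=
  H807.isBasicOf H.pi H.pi_surjective H.prod_eq_zero

end

end

end Vale.Agent.P176.H807
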