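import Vale.Agent.P176.H807.RadA

set_option linter.all false

namespace Vale.Agent.P176.H807

open Vale.Agent.P176

universe u

section

variable {K : Type u} [Field K] {W : Type u} [AddCommGroup W] [Module K W]

/-- the part `V ⊗ W` -/
noncomputable def vpart (K W : Type u) [Field K] [AddCommGroup W] [Module K W] : Submodule K (X3 W) :=
  LinearMap.ker (LinearMap.fst K (ℕ →₀ W) (W × W))

theorem mem_vpart {x : X3 W} : x ∈ vpart K W ↔ x.1 = 0 := Iff.rfl

variable {E F H : Module.End K W} {Fil : ℤ → Submodule K W}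

theorem exists_v {x : X3 W} (hx : x ∈ vpart K W) :
    ∃ y z : X3 W, x = x31 E F H y + x32 E F H z := by
  obtain ⟨p, w1, w2⟩ := x
  have hp : p = 0 := hx
  subst hp
  refine ⟨(Finsupp.single 0 w1, 0), (Finsupp.single 0 w2, 0), ?_⟩
  rw [x31_apply, x32_apply, evT_single, evT_single]
  simp

theorem opHom_v {φ : X3 W →ₗ[K] X3 W}
    (hφ : IsOpHom (x3Obj E F H Fil) (x3Obj E F H Fil) φ) (y : X3 W) :
    φ (x31 E F H y) = x31 E F H (φ y) ∧ φ (x32 E F H y) = x32 E F H (φ y) :=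
  ⟨hφ 4 y, hφ 5 y⟩

theorem homV {φ : X3 W →ₗ[K] X3 W}
    (hφ : IsOpHom (x3Obj E F H Fil) (x3Obj E F H Fil) φ) {x : X3 W} (hx : x ∈ vpart K W) :
    φ x ∈ vpart K W := by
  obtain ⟨y, z, rfl⟩ := exists_v (E := E) (F := F) (H := H) hx
  rw [map_add, (opHom_v hφ y).1, (opHom_v hφ z).2]
  refine Submodule.add_mem _ ?_ ?_
  · rw [x31_apply]; exact mem_vpart.2 rfl
  · rw [x32_apply]; exact mem_vpart.2 rfl

/-- the quotient by the `V` part -/
noncomputable def qObj (E F H : Module.End K W) : FMod K (Fin 6) where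
  X := ℕ →₀ W
  op := ![polyMap E, polyMap F, polyMap H, polyShift K W, 0, 0]
  Fil := fun _ => ⊤

theorem fst_op : IsOpHom (x3Obj E F H Fil) (qObj E F H)
    (LinearMap.fst K (ℕ →₀ W) (W × W)) := by
  intro s x
  fin_cases s
  · rfl
  · rfl
  · rfl
  · rfl
  · rfl
  · rfl

theorem homV' {one : X3 W} (hg : IsGen (x3Obj E F H Fil) one) {φ : X3 W →ₗ[K] X3 W}
    (hφ : IsOpHom (x3Obj E F H Fil) (x3Obj E F H Fil) φ) (h1 : φ one ∈ vpart K W) (x : X3 W) :
    φ x ∈ vpart K W := by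
  have h2 : IsOpHom (x3Obj E F H Fil) (qObj E F H)
      (LinearMap.fst K (ℕ →₀ W) (W × W) ∘ₗ φ) := by
    intro s y
    have := fst_op (E := E) (F := F) (H := H) (Fil := Fil) s (φ y)
    rw [← hφ s y] at this
    exact this
  have h3 : IsOpHom (x3Obj E F H Fil) (qObj E F H) (0 : X3 W →ₗ[K] (ℕ →₀ W)) := by
    intro s y
    have : (qObj E F H).op s 0 = 0 := map_zero _
    exact this.symm
  have h4 := hg (qObj E F H) _ _ h2 h3 (by
    have : (φ one).1 = 0 := mem_vpart.1 h1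
    exact this)
  exact mem_vpart.2 (LinearMap.congr_fun h4 x)

theorem homV0 {one : X3 W} (hg : IsGen (x3Obj E F H Fil) one) {φ : X3 W →ₗ[K] X3 W}
    (hφ : IsOpHom (x3Obj E F H Fil) (x3Obj E F H Fil) φ) (h1 : φ one ∈ vpart K W) {x : X3 W}
    (hx : x ∈ vpart K W) : φ x = 0 := by
  obtain ⟨y, z, rfl⟩ := exists_v (E := E) (F := F) (H := H) hx
  have hy := mem_vpart.1 (homV' hg hφ h1 y)
  have hz := mem_vpart.1 (homV' hg hφ h1 z)
  rw [map_add, (opHom_v hφ y).1, (opHom_v hφ z).2, x31_apply, x32_apply, hy, hz]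
  simp

theorem hom0 {one : X3 W} (hg : IsGen (x3Obj E F H Fil) one) {φ : X3 W →ₗ[K] X3 W}
    (hφ : IsOpHom (x3Obj E F H Fil) (x3Obj E F H Fil) φ) (h1 : φ one = 0) (x : X3 W) :
    φ x = 0 := by
  have h3 : IsOpHom (x3Obj E F H Fil) (x3Obj E F H Fil) (0 : X3 W →ₗ[K] X3 W) := by
    intro s y
    have : (x3Obj E F H Fil).op s 0 = 0 := map_zero _
    exact this.symm
  have h4 := hg (x3Obj E F H Fil) _ _ hφ h3 h1
  exact LinearMap.congr_fun h4 x

theorem neg_mem (h0 : ∀ i < (0 : ℤ), Fil i = ⊥) {i : ℤ} (hi : i < 0) {x : X3 W}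
    (hx : x ∈ x3Fil Fil i) : x ∈ vpart K W := by
  refine mem_vpart.2 (Finsupp.ext fun a => ?_)
  have h1 := hx.1 a
  rw [h0 _ (by omega)] at h1
  exact (Submodule.mem_bot K).1 h1

theorem neg2_eq (h0 : ∀ i < (0 : ℤ), Fil i = ⊥) {i : ℤ} (hi : i < -1) {x : X3 W}
    (hx : x ∈ x3Fil Fil i) : x = 0 := by
  have h1 := mem_vpart.1 (neg_mem h0 (by omega) hx)
  obtain ⟨h2, h3⟩ := hx.2
  rw [h0 _ (by omega)] at h2 h3
  exact Prod.ext h1 (Prod.ext ((Submodule.mem_bot K).1 h2) ((Submodule.mem_bot K).1 h3))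

/-- the constant coefficient -/
noncomputable def eps (ε : W →ₗ[K] K) : X3 W →ₗ[K] K :=
  ε ∘ₗ Finsupp.lapply 0 ∘ₗ LinearMap.fst K (ℕ →₀ W) (W × W)

theorem eps_apply (ε : W →ₗ[K] K) (x : X3 W) : eps ε x = ε (x.1 0) := rfl

theorem hasRad {one : W} (hg : IsGen (x3Obj E F H Fil) (Finsupp.single 0 one, 0))
    (h0 : ∀ i < (0 : ℤ), Fil i = ⊥) (h1 : one ∈ Fil 0) {ε : W →ₗ[K] K} (he1 : ε one = 1)
    (he0 : ∀ w ∈ Fil 0, w = ε w • one) :
    HasRad (x3Obj E F H Fil) (Finsupp.single 0 one, 0) (vpart K W) (eps ε) where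
  homV φ hφ x hx := homV hφ hx
  homV' φ hφ hx x := homV' hg hφ hx x
  homV0 φ hφ h x hx := homV0 hg hφ h hx
  hom0 φ hφ h x := hom0 hg hφ h x
  one_mem := by
    refine ⟨single_mem_polyFil ?_, Submodule.zero_mem _⟩
    simpa using h1
  neg i hi x hx := neg_mem h0 hi hx
  neg2 i hi x hx := neg2_eq h0 hi hx
  epsV x hx := by
    rw [eps_apply, mem_vpart.1 hx]
    simp
  eps_one := by
    rw [eps_apply]
    simp [he1]
  eps_zero x hx := by
    refine mem_vpart.2 ?_
    rw [eps_apply]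
    change x.1 - ε (x.1 0) • Finsupp.single 0 one = 0
    refine Finsupp.ext fun a => ?_
    rcases Nat.eq_zero_or_pos a with ha | ha
    · subst ha
      have h2 : x.1 0 ∈ Fil 0 := by
        have := hx.1 0
        simpa using this
      have h3 := he0 _ h2
      rw [Finsupp.sub_apply, Finsupp.smul_apply, Finsupp.single_eq_same, Finsupp.zero_apply,
        ← h3, sub_self]
    · have h2 := hx.1 a
      rw [h0 _ (by omega)] at h2
      rw [Finsupp.sub_apply, Finsupp.smul_apply, (Submodule.mem_bot K).1 h2,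
        Finsupp.single_eq_of_ne (by omega)]
      simp

end

section

variable {K : Type*} [Field K] {W : Type*} [AddCommGroup W] [Module K W]

theorem filP_zero_eq {F : ℤ → Submodule K W} (h0 : ∀ i < (0 : ℤ), F i = ⊥) {ε : W → K} {one : W}
    (h : ∀ w ∈ F 0, w = ε w • one) {p : ℕ →₀ W} (hp : p ∈ filP F 0) :
    p = ε (p 0) • Finsupp.single 0 one := by
  refine Finsupp.ext fun a => ?_
  rcases Nat.eq_zero_or_pos a with ha | ha
  · subst ha
    have h2 : p 0 ∈ F 0 := by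
      have := hp 0
      simpa using this
    rw [Finsupp.smul_apply, Finsupp.single_eq_same]
    exact h _ h2
  · have h2 := hp a
    rw [h0 _ (by omega)] at h2
    rw [Finsupp.smul_apply, (Submodule.mem_bot K).1 h2, Finsupp.single_eq_of_ne (by omega),
      smul_zero]

/-- the coefficient of `1` -/
noncomputable def epsC (K : Type*) [Field K] : C0 K →ₗ[K] K :=
  Finsupp.lapply 0 ∘ₗ Finsupp.lapply 0 ∘ₗ Finsupp.lapply 0

theorem epsC_one : epsC K (C0.incl K K 1) = 1 := by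
  rw [C0.incl_apply]
  simp [epsC]

theorem epsC_zero {w : C0 K} (hw : w ∈ C0.fil K K 0) : w = epsC K w • C0.incl K K 1 := by
  have h0 : ∀ i < (0 : ℤ), fil0 K K i = ⊥ := fun i hi => fil0_of_neg hi
  have s0 : ∀ w ∈ fil0 K K 0, w = (id w) • (1 : K) := fun w _ => by simp
  have s1 : ∀ w ∈ filP (fil0 K K) 0, w = (w 0) • (Finsupp.single 0 (1 : K) : ℕ →₀ K) :=
    fun w hw => filP_zero_eq h0 s0 hw
  have s2 : ∀ w ∈ filP (filP (fil0 K K)) 0,
      w = (w 0 0) • (Finsupp.single 0 (Finsupp.single 0 (1 : K)) : ℕ →₀ ℕ →₀ K) :=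
    fun w hw => filP_zero_eq (filP_eq_bot h0) s1 hw
  have s3 : w = (w 0 0 0) • (Finsupp.single 0 (Finsupp.single 0 (Finsupp.single 0 (1 : K))) :
      ℕ →₀ ℕ →₀ ℕ →₀ K) := filP_zero_eq (filP_eq_bot (filP_eq_bot h0)) s2 hw
  exact s3

end

section

attribute [local instance] UnivS.instC0 UnivS.instC0Mod

theorem hasRad_walg (K : Type u) [Field K] :
    HasRad (UnivS.obj K K) (UnivS.inc K K 1) (vpart K (C0 K)) (eps (epsC K)) := by
  have hg : IsGen (UnivS.obj K K) (UnivS.inc K K 1) := (UnivS.isFree K K).isGen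
  exact hasRad (W := C0 K) (E := C0.opE K K) (F := C0.opF K K) (H := C0.opH K K)
    (Fil := C0.fil K K) (one := C0.incl K K 1) hg (fun _ hi => C0.fil_eq_bot hi)
    (C0.incl_mem (1 : K)) (ε := epsC K) epsC_one (fun w hw => epsC_zero hw)

/-- The algebra of the counterexample is basic with five simple modules and the seventh power of
its radical vanishes. -/
theorem isBasicOf_walg (K : Type u) [Field K] :
    IsBasicOf K (WAlg (PU (UnivS.obj K K))) 5 7 := (hasRad_walg K).isBasicOf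

end

end Vale.Agent.P176.H807
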