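import Vale.Agent.P176.Bdl.B1

/-!
# P176: two-sided counterexamples to the finitistic dimension conjecture

If `φ : R → A` is a surjective ring homomorphism such that `A` is projective over `R`, then every
`A`-module has the same projective dimension over `R` as over `A`. This is applied to the two
projections of `A × Aᵐᵒᵖ` and of its opposite.
-/

set_option linter.all false

namespace Vale.Agent.P176.H807

open CategoryTheory Vale.Agent.P176 Vale.Agent.P176.HMod

universe u

section

variable {R A : Type u} [Ring R] [Ring A]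

/-- `M` as an `R`-module through `φ`. -/
def Res (φ : R →+* A) (M : Type u) : Type u := M

variable (φ : R →+* A) {M N L : Type u} [AddCommGroup M] [Module A M] [AddCommGroup N] [Module A N]
  [AddCommGroup L] [Module A L]

instance : AddCommGroup (Res φ M) := inferInstanceAs (AddCommGroup M)

instance instResMod : Module R (Res φ M) := Module.compHom M φ

/-- the identity -/
def Res.mk : M ≃+ Res φ M := AddEquiv.refl M

theorem Res.smul_mk (r : R) (m : M) : r • Res.mk φ m = Res.mk φ (φ r • m) := rfl

/-- functoriality -/
def Res.map (f : M →ₗ[A] N) : Res φ M →ₗ[R] Res φ N where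
  toFun x := Res.mk φ (f ((Res.mk φ).symm x))
  map_add' x y := map_add f _ _
  map_smul' r x := map_smul f (φ r) _

theorem Res.map_mk (f : M →ₗ[A] N) (m : M) : Res.map φ f (Res.mk φ m) = Res.mk φ (f m) := rfl

theorem SES_res {f : M →ₗ[A] N} {g : N →ₗ[A] L} (h : SES f g) :
    SES (Res.map φ f) (Res.map φ g) := ⟨h.inj, h.exact, h.surj⟩

variable {φ}

theorem proj_res [hA : Module.Projective R (Res φ A)] [hM : Module.Projective A M] :
    Module.Projective R (Res φ M) := by
  obtain ⟨s, hs⟩ := Module.projective_def'.1 hM
  have h1 : Module.Projective R (M →₀ Res φ A) := by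
    classical
    exact Module.Projective.of_equiv' (finsuppLequivDFinsupp (ι := M) (M := Res φ A) R).symm
  let e : (M →₀ Res φ A) →ₗ[R] Res φ (M →₀ A) :=
    { toFun := fun x => x
      map_add' := fun _ _ => rfl
      map_smul' := fun _ _ => rfl }
  let e' : Res φ (M →₀ A) →ₗ[R] (M →₀ Res φ A) :=
    { toFun := fun x => x
      map_add' := fun _ _ => rfl
      map_smul' := fun _ _ => rfl }
  have h2 : Module.Projective R (Res φ (M →₀ A)) :=
    Module.Projective.of_split e' e (LinearMap.ext fun _ => rfl)
  refine Module.Projective.of_split (Res.map φ s)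
    (Res.map φ (Finsupp.linearCombination A (id : M → M))) (LinearMap.ext fun x => ?_)
  exact congrArg (fun f : M →ₗ[A] M => f x) hs

theorem proj_of_res (hφ : Function.Surjective φ) (h : Module.Projective R (Res φ M)) :
    Module.Projective A M := by
  have hsurj : Function.Surjective (Res.map φ (Finsupp.linearCombination A (id : M → M))) :=
    Finsupp.linearCombination_id_surjective A M
  obtain ⟨s, hs⟩ := Module.projective_lifting_property _ (LinearMap.id : Res φ M →ₗ[R] Res φ M) hsurj
  let t : M →ₗ[A] (M →₀ A) :=
    { toFun := fun x => s x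
      map_add' := fun x y => map_add s x y
      map_smul' := fun a x => by
        obtain ⟨r, rfl⟩ := hφ a
        exact LinearMap.map_smul s r (Res.mk φ x) }
  refine Module.projective_def'.2 ⟨t, LinearMap.ext fun x => ?_⟩
  exact congrArg (fun f : Res φ M →ₗ[R] Res φ M => f x) hs

theorem pdLT_one_iff {B P : Type u} [Ring B] [AddCommGroup P] [Module B P] :
    PdLT B P 1 ↔ Module.Projective B P := by
  constructor
  · intro h
    have h1 : Projective (ModuleCat.of B P) := projective_iff_hasProjectiveDimensionLT_one.2 h
    exact ModuleCat.projective_of_module_projective (ModuleCat.of B P)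
  · intro h
    exact PdLT.of_projective

/-- a free cover -/
theorem cover (B P : Type u) [Ring B] [AddCommGroup P] [Module B P] :
    ∃ (Z : Type u) (_ : AddCommGroup Z) (_ : Module B Z) (f : Z →ₗ[B] (P →₀ B))
      (g : (P →₀ B) →ₗ[B] P), SES f g := by
  refine ⟨LinearMap.ker (Finsupp.linearCombination B (id : P → P)), inferInstance, inferInstance,
    (LinearMap.ker (Finsupp.linearCombination B (id : P → P))).subtype,
    Finsupp.linearCombination B (id : P → P), Subtype.val_injective, fun x => ?_,
    Finsupp.linearCombination_id_surjective B P⟩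
  constructor
  · intro h
    exact ⟨⟨x, h⟩, rfl⟩
  · rintro ⟨y, rfl⟩
    exact y.2

theorem pd_iff (hφ : Function.Surjective φ) [hA : Module.Projective R (Res φ A)] (n : ℕ) :
    ∀ (M : Type u) [AddCommGroup M] [Module A M], PdLT A M (n + 1) ↔ PdLT R (Res φ M) (n + 1) := by
  induction n with
  | zero =>
    intro M _ _
    rw [zero_add, pdLT_one_iff, pdLT_one_iff]
    exact ⟨fun h => proj_res, fun h => proj_of_res hφ h⟩
  | succ n ih =>
    intro M _ _
    obtain ⟨Z, _, _, f, g, hs⟩ := cover A M
    have hr := SES_res φ hs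
    have p1 : PdLT A (M →₀ A) 1 := PdLT.of_projective
    have hp : Module.Projective R (Res φ (M →₀ A)) := proj_res
    have p2 : PdLT R (Res φ (M →₀ A)) 1 := PdLT.of_projective
    have ih' := ih Z
    constructor
    · intro h
      exact hr.pdLT₃ (ih'.1 (hs.pdLT₁ (p1.mono (by omega)) h)) (p2.mono (by omega))
    · intro h
      exact hs.pdLT₃ (ih'.2 (hr.pdLT₁ (p2.mono (by omega)) h)) (p1.mono (by omega))

theorem finite_res (hφ : Function.Surjective φ) [hM : Module.Finite A M] :
    Module.Finite R (Res φ M) := by
  obtain ⟨n, f, hf⟩ := Module.Finite.exists_fin' A M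
  have h0 : Module.Finite R (Res φ A) := by
    let g : R →ₗ[R] Res φ A :=
      { toFun := fun r => Res.mk φ (φ r)
        map_add' := fun x y => map_add φ x y
        map_smul' := fun x y => map_mul φ x y }
    exact Module.Finite.of_surjective g hφ
  have h1 : Module.Finite R (Fin n → Res φ A) := inferInstance
  let e : (Fin n → Res φ A) →ₗ[R] Res φ (Fin n → A) :=
    { toFun := fun x => x
      map_add' := fun _ _ => rfl
      map_smul' := fun _ _ => rfl }
  have h2 : Module.Finite R (Res φ (Fin n → A)) :=
    Module.Finite.of_surjective e Function.surjective_id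
  exact Module.Finite.of_surjective (Res.map φ f) hf

/-- If the little finitistic dimension is infinite, there are modules of large finite dimension. -/
theorem exists_of_findim_top {A : Type u} [Ring A] (h : findim A = ⊤) (p : ℕ) :
    ∃ (M : Type u) (_ : AddCommGroup M) (_ : Module A M) (q : ℕ),
      Module.Finite A M ∧ p + 1 ≤ q ∧ PdLT A M (q + 1) ∧ ¬ PdLT A M q := by
  have h1 : ((p + 1 : ℕ) : WithBot ℕ∞) < findim A := by
    rw [h]
    exact WithBot.coe_lt_coe.2 (ENat.coe_lt_top _)
  unfold findim at h1
  rw [lt_iSup_iff] at h1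
  obtain ⟨M, h1⟩ := h1
  rw [lt_iSup_iff] at h1
  obtain ⟨hfin, h1⟩ := h1
  rw [lt_iSup_iff] at h1
  obtain ⟨hne, h1⟩ := h1
  have h2 : ¬ PdLT A M (p + 1) := (projectiveDimension_ge_iff M (p + 1)).1 h1.le
  obtain ⟨n, hn⟩ := (projectiveDimension_ne_top_iff M).1 hne
  classical
  have hex : ∃ n, PdLT A M n := ⟨n + 1, hn⟩
  have h3 := Nat.find_spec hex
  have h4 : p + 1 < Nat.find hex := by
    by_contra hc
    exact h2 (h3.mono (by omega))
  refine ⟨M, inferInstance, inferInstance, Nat.find hex - 1, hfin, by omega, ?_, ?_⟩
  · have : Nat.find hex - 1 + 1 = Nat.find hex := by omega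
    rw [this]
    exact h3
  · exact Nat.find_min hex (by omega)

theorem findim_top_of_surj (hφ : Function.Surjective φ) [hA : Module.Projective R (Res φ A)]
    (h : findim A = ⊤) : findim R = ⊤ := by
  refine findim_eq_top fun p => ?_
  obtain ⟨M, _, _, q, h1, h2, h3, h4⟩ := exists_of_findim_top h p
  obtain ⟨q, rfl⟩ : ∃ q', q = q' + 1 := ⟨q - 1, by omega⟩
  exact ⟨Res φ M, inferInstance, inferInstance, q + 1, finite_res hφ, by omega,
    (pd_iff hφ (q + 1) M).1 h3, fun h5 => h4 ((pd_iff hφ q M).2 h5)⟩

theorem proj_of_section (s : A →+ R) (h1 : ∀ a, φ (s a) = a) (h2 : ∀ r a, s (φ r * a) = r * s a) :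
    Module.Projective R (Res φ A) := by
  let i : Res φ A →ₗ[R] R :=
    { toFun := fun a => s a
      map_add' := fun x y => map_add s x y
      map_smul' := fun r a => h2 r a }
  let g : R →ₗ[R] Res φ A :=
    { toFun := fun r => Res.mk φ (φ r)
      map_add' := fun x y => map_add φ x y
      map_smul' := fun x y => map_mul φ x y }
  exact Module.Projective.of_split i g (LinearMap.ext fun a => h1 a)

end

section

open MulOpposite

variable (K : Type u) [Field K] (A : Type u) [Ring A] [Algebra K A]

/-- `A × Aᵐᵒᵖ` is isomorphic to its opposite. -/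
def selfOp : (A × Aᵐᵒᵖ) ≃ₐ[K] (A × Aᵐᵒᵖ)ᵐᵒᵖ where
  toFun x := op (unop x.2, op x.1)
  invFun y := (unop (unop y).2, op (unop y).1)
  left_inv x := by simp
  right_inv y := by simp
  map_mul' x y := by
    apply unop_injective
    ext <;> simp
  map_add' x y := by
    apply unop_injective
    ext <;> simp
  commutes' r := by
    apply unop_injective
    ext <;> simp [MulOpposite.algebraMap_apply]

variable {A}

theorem findim_prod (h : findim A = ⊤) : findim (A × Aᵐᵒᵖ) = ⊤ := by
  have h1 : Module.Projective (A × Aᵐᵒᵖ) (Res (RingHom.fst A Aᵐᵒᵖ) A) :=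
    proj_of_section
      { toFun := fun a => (a, 0), map_zero' := rfl, map_add' := fun x y => by simp }
      (fun a => rfl) (fun r a => by
        ext <;> simp)
  exact findim_top_of_surj (φ := RingHom.fst A Aᵐᵒᵖ) (fun a => ⟨(a, 0), rfl⟩) h

/-- the second projection of the opposite -/
def snd' (A : Type u) [Ring A] : (A × Aᵐᵒᵖ)ᵐᵒᵖ →+* A where
  toFun x := unop (unop x).2
  map_one' := rfl
  map_zero' := rfl
  map_mul' x y := by simp
  map_add' x y := by simp

theorem findim_prod_op (h : findim A = ⊤) : findim (A × Aᵐᵒᵖ)ᵐᵒᵖ = ⊤ := by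
  have h1 : Module.Projective (A × Aᵐᵒᵖ)ᵐᵒᵖ (Res (snd' A) A) :=
    proj_of_section
      { toFun := fun a => op (0, op a), map_zero' := rfl
        map_add' := fun x y => by
          apply unop_injective
          ext <;> simp }
      (fun a => rfl) (fun r a => by
        apply unop_injective
        ext <;> simp [snd'])
  exact findim_top_of_surj (φ := snd' A) (fun a => ⟨op (0, op a), rfl⟩) h

end

/-- Over every field of characteristic zero there is a finite-dimensional algebra, isomorphic to
its opposite, whose left and right little finitistic dimensions are both infinite. -/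
theorem exists_two_sided (K : Type u) [Field K] [CharZero K] :
    ∃ (A : Type u) (_ : Ring A) (_ : Algebra K A), Module.Finite K A ∧ findim A = ⊤ ∧
      findim Aᵐᵒᵖ = ⊤ ∧ Nonempty (A ≃ₐ[K] Aᵐᵒᵖ) := by
  obtain ⟨A, _, _, hf, h⟩ := exists_findim_eq_top K
  have h1 : Module.Finite K Aᵐᵒᵖ := Module.Finite.equiv (MulOpposite.opLinearEquiv K)
  exact ⟨A × Aᵐᵒᵖ, inferInstance, inferInstance, inferInstance, findim_prod h, findim_prod_op h,
    ⟨selfOp K A⟩⟩

end Vale.Agent.P176.H807
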